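import Mathlib

/-! # Iteration bookkeeping for the explicit exponent `8` (module `Iterate6`)

Pure real analysis.  The state `P r k D` is transported from retention `r`, scale `k`, cost `D`
to retention `3 r`, scale `243000 k² / r`, cost `84 D`.  Since `84 * 3 = 252 < 256 = 2 ^ 8`,
the final cost is at most `(log n) ^ 8 / 100`. -/

namespace Vale.Agent.P321.R2.H94

/-- `u_j = (8.1 * 10^-6)^(2^j) / 81000`, the ratio `k_j / r_j`. -/
noncomputable def vv (j : ℕ) : ℝ := (81 / 10 ^ 7) ^ (2 ^ j) / 81000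

theorem vv_pos (j : ℕ) : 0 < vv j := by unfold vv; positivity

theorem vv_zero : vv 0 = 1 / 10 ^ 10 := by unfold vv; norm_num

theorem vv_succ (j : ℕ) : vv (j + 1) = 81000 * vv j ^ 2 := by
  unfold vv
  rw [pow_succ 2 j, pow_mul]
  ring

theorem vv_eq (j : ℕ) : vv j = 1 / (81000 * (10 ^ 7 / 81) ^ (2 ^ j)) := by
  unfold vv
  have h8 : (81 / 10 ^ 7 : ℝ) ^ (2 ^ j) = 1 / (10 ^ 7 / 81) ^ (2 ^ j) := by
    rw [← one_div_pow]; norm_num
  rw [h8]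
  field_simp

theorem big_le_exp : (10 ^ 7 / 81 : ℝ) ≤ Real.exp 20 := by
  have h2 : Real.exp 20 = (Real.exp 1) ^ 20 := by
    rw [← Real.exp_nat_mul]; norm_num
  rw [h2]
  have h3 : (2 : ℝ) ^ 20 ≤ (Real.exp 1) ^ 20 :=
    pow_le_pow_left₀ (by norm_num) (by linarith [Real.exp_one_gt_d9]) 20
  refine le_trans ?_ h3
  norm_num

theorem big_pow_le (K : ℕ) {Y : ℝ} (hY : Y = 2 ^ K) :
    (10 ^ 7 / 81 : ℝ) ^ (2 ^ K) ≤ Real.exp (20 * Y) := by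
  have h5 : Real.exp (20 * Y) = (Real.exp 20) ^ (2 ^ K) := by
    rw [← Real.exp_nat_mul]; congr 1; rw [hY]; push_cast; ring
  rw [h5]
  exact pow_le_pow_left₀ (by norm_num) big_le_exp _

/-- The floor of the scale against the base cost. -/
theorem floor_bound {p Z Y D₀ : ℝ} {K : ℕ} (hp : 0 < p) (hZ : Z = 3 ^ K / p) (hZ1 : 1 ≤ Z)
    (hY : Y = 2 ^ K) (hZY : Y ≤ Z) (hDZ : 10 ^ 4 * Z ≤ D₀ / 10 ^ 5) :
    Real.exp (-(D₀ / 10 ^ 5)) ≤ p / 3 ^ K * vv K / 1000 := by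
  have h6 : 1 / (p / 3 ^ K * vv K / 1000) = 81000000 * Z * (10 ^ 7 / 81) ^ (2 ^ K) := by
    rw [vv_eq, hZ]
    field_simp
    norm_num
  have h7 : 81000000 * Z ≤ Real.exp (810 * Z + 20) := by
    rw [Real.exp_add]
    have h9 := Real.add_one_le_exp (810 * Z)
    have h10 : (810 * Z) * (10 ^ 7 / 81 : ℝ) ≤ Real.exp (810 * Z) * Real.exp 20 :=
      mul_le_mul (by linarith) big_le_exp (by positivity) (Real.exp_pos _).le
    refine le_trans ?_ h10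
    have : (810 * Z) * (10 ^ 7 / 81 : ℝ) = 10 ^ 8 * Z := by ring
    rw [this]
    linarith
  have h8 : 1 / (p / 3 ^ K * vv K / 1000) ≤ Real.exp (D₀ / 10 ^ 5) := by
    rw [h6]
    calc 81000000 * Z * (10 ^ 7 / 81) ^ (2 ^ K) ≤
          Real.exp (810 * Z + 20) * Real.exp (20 * Y) :=
          mul_le_mul h7 (big_pow_le K hY) (by positivity) (Real.exp_pos _).le
      _ = Real.exp (810 * Z + 20 + 20 * Y) := (Real.exp_add _ _).symm
      _ ≤ Real.exp (D₀ / 10 ^ 5) := Real.exp_le_exp.mpr (by linarith)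
  have h9 : 0 < p / 3 ^ K * vv K / 1000 := by
    have := vv_pos K
    positivity
  rw [Real.exp_neg]
  rw [one_div] at h8
  rw [inv_le_comm₀ (Real.exp_pos _) h9]
  exact h8

/-- The number of steps. -/
theorem exists_steps (j₀ n : ℕ) (hn : 2 ^ (2 ^ j₀) + 4 ≤ n) :
    ∃ K : ℕ, j₀ ≤ K ∧ n < 2 ^ (2 ^ K) ∧ (2 : ℝ) ^ K ≤ 6 * Real.log n := by
  have hpp : 0 < 2 ^ (2 ^ j₀) := by positivity
  have hn4 : 4 ≤ n := by omega
  have hnR : (4 : ℝ) ≤ n := by exact_mod_cast hn4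
  have hlogn1 : 1 ≤ Real.log n := by
    rw [Real.le_log_iff_exp_le (by linarith)]
    linarith [Real.exp_one_lt_d9]
  set ℓ : ℕ := Nat.log 2 n + 1 with hℓ
  set K : ℕ := Nat.clog 2 ℓ with hK
  have hnℓ : n < 2 ^ ℓ := Nat.lt_pow_succ_log_self (by norm_num) n
  have hℓK : ℓ ≤ 2 ^ K := Nat.le_pow_clog (by norm_num) ℓ
  have hℓ2 : 2 ≤ ℓ := by
    have : 1 ≤ Nat.log 2 n := Nat.log_pos (by norm_num) (by omega)
    omega
  have hKℓ : 2 ^ K < 2 * ℓ := by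
    have h1 : 2 ^ (K - 1) < ℓ := by
      rw [hK]
      exact Nat.pow_pred_clog_lt_self (by norm_num) (by omega)
    have h2 : 1 ≤ K := Nat.clog_pos (by norm_num) hℓ2
    have h3 : 2 ^ K = 2 ^ (K - 1) * 2 := by
      rw [← pow_succ]; congr 1; omega
    omega
  have hKj : j₀ ≤ K := by
    have h1 : 2 ^ (2 ^ j₀) < 2 ^ ℓ := by omega
    have h2 : 2 ^ j₀ < ℓ := (Nat.pow_lt_pow_iff_right (by norm_num)).mp h1
    have h3 : 2 ^ j₀ < 2 ^ K := by omega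
    exact ((Nat.pow_lt_pow_iff_right (by norm_num)).mp h3).le
  refine ⟨K, hKj, hnℓ.trans_le (Nat.pow_le_pow_right (by norm_num) hℓK), ?_⟩
  have h1 : (2 : ℝ) ^ K ≤ 2 * ℓ := by exact_mod_cast hKℓ.le
  have h2 : ((2 : ℝ)) ^ (Nat.log 2 n) ≤ n := by exact_mod_cast Nat.pow_log_le_self 2 (by omega)
  have h3 : (Nat.log 2 n : ℝ) * Real.log 2 ≤ Real.log n := by
    rw [← Real.log_pow]
    exact Real.log_le_log (by positivity) h2
  have h4 : (0.69 : ℝ) ≤ Real.log 2 := by linarith [Real.log_two_gt_d9]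
  have h5 : (ℓ : ℝ) = Nat.log 2 n + 1 := by rw [hℓ]; push_cast; ring
  have h6 : (0 : ℝ) ≤ (Nat.log 2 n : ℝ) := Nat.cast_nonneg _
  have h7 : (Nat.log 2 n : ℝ) * 0.69 ≤ Real.log n :=
    (mul_le_mul_of_nonneg_left h4 h6).trans h3
  rw [h5] at h1
  linarith

theorem vv_anti {j k : ℕ} (h : j ≤ k) : vv k ≤ vv j := by
  unfold vv
  have h1 : (81 / 10 ^ 7 : ℝ) ^ (2 ^ k) ≤ (81 / 10 ^ 7 : ℝ) ^ (2 ^ j) :=
    pow_le_pow_of_le_one (by norm_num) (by norm_num) (Nat.pow_le_pow_right (by norm_num) h)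
  exact div_le_div_of_nonneg_right h1 (by norm_num)

theorem vv_le (j : ℕ) : vv j ≤ 1 / 10 ^ 10 := by
  refine (vv_anti (Nat.zero_le j)).trans vv_zero.le

theorem iterate6_core (n : ℕ) (p : ℝ) (hp : 0 < p) (hp1 : p ≤ 1) (K : ℕ)
    (P : ℝ → ℝ → ℝ → Prop)
    (hbase : ∀ r D : ℝ, 0 < r → r ≤ 1 → 10 ^ 6 ≤ D →
      (10 ^ 12 / r) * Real.log (10 ^ 12 / r) ≤ D → P r (r / 10 ^ 10) D)
    (hstep : ∀ r k D : ℝ, 0 < r → 3 * r ≤ 1 → 0 < k → 10 ^ 10 * k ≤ r → 10 ^ 6 ≤ D →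
      (n : ℝ) + 1 ≤ Real.exp (D / 10 ^ 5) → 1 / r ≤ Real.exp (D / 10 ^ 5) →
      Real.exp (-(D / 10 ^ 5)) ≤ 81 * k ^ 2 / r → P r k D →
      P (3 * r) (243000 * k ^ 2 / r) (84 * D))
    (D₀ : ℝ) (h1D : 10 ^ 6 ≤ D₀) (hnD : (n : ℝ) + 1 ≤ Real.exp (D₀ / 10 ^ 5))
    (hbD : (10 ^ 12 / (p / 3 ^ K)) * Real.log (10 ^ 12 / (p / 3 ^ K)) ≤ D₀)
    (hrD : 1 / (p / 3 ^ K) ≤ Real.exp (D₀ / 10 ^ 5))
    (hkD : Real.exp (-(D₀ / 10 ^ 5)) ≤ p / 3 ^ K * vv K / 1000) :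
    ∀ j : ℕ, j ≤ K → P (p / 3 ^ (K - j)) (p / 3 ^ (K - j) * vv j) (84 ^ j * D₀) := by
  have hr₀pos : 0 < p / 3 ^ K := by positivity
  have h3K : (1 : ℝ) ≤ 3 ^ K := one_le_pow₀ (by norm_num)
  have hr₀le : p / 3 ^ K ≤ p := div_le_self hp.le h3K
  intro j
  induction j with
  | zero =>
    intro _
    have h := hbase (p / 3 ^ K) D₀ hr₀pos (hr₀le.trans hp1) h1D hbD
    have hk : p / 3 ^ (K - 0) * vv 0 = p / 3 ^ K / 10 ^ 10 := by
      rw [vv_zero, Nat.sub_zero]; ring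
    rw [hk, Nat.sub_zero, pow_zero, one_mul]
    exact h
  | succ j ih =>
    intro hj
    have hP := ih (by omega)
    obtain ⟨m, hm⟩ : ∃ m, K = j + 1 + m := ⟨K - (j + 1), by omega⟩
    have e1 : K - j = m + 1 := by omega
    have e2 : K - (j + 1) = m := by omega
    rw [e2]
    rw [e1] at hP
    have hrpos : 0 < p / 3 ^ (m + 1) := by positivity
    have h3r : 3 * (p / 3 ^ (m + 1)) = p / 3 ^ m := by
      rw [pow_succ]; field_simp
    have h3m : (1 : ℝ) ≤ 3 ^ m := one_le_pow₀ (by norm_num)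
    have h3rle : 3 * (p / 3 ^ (m + 1)) ≤ 1 := by
      rw [h3r]; exact (div_le_self hp.le h3m).trans hp1
    have hrr : p / 3 ^ K ≤ p / 3 ^ (m + 1) := by
      apply div_le_div_of_nonneg_left hp.le (by positivity)
      exact pow_le_pow_right₀ (by norm_num) (by omega)
    have hur := vv_pos j
    have hul := vv_le j
    have hκ0 : 0 < p / 3 ^ (m + 1) * vv j := by positivity
    have hκle : 10 ^ 10 * (p / 3 ^ (m + 1) * vv j) ≤ p / 3 ^ (m + 1) := by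
      have h1 : p / 3 ^ (m + 1) * vv j ≤ p / 3 ^ (m + 1) * (1 / 10 ^ 10) :=
        mul_le_mul_of_nonneg_left hul hrpos.le
      linarith
    have hk' : 243000 * (p / 3 ^ (m + 1) * vv j) ^ 2 / (p / 3 ^ (m + 1)) =
        p / 3 ^ m * vv (j + 1) := by
      rw [vv_succ, ← h3r]; field_simp; norm_num
    have hk'' : 81 * (p / 3 ^ (m + 1) * vv j) ^ 2 / (p / 3 ^ (m + 1)) =
        p / 3 ^ m * vv (j + 1) / 3000 := by
      rw [← hk']; ring
    have hDD : D₀ ≤ 84 ^ j * D₀ := by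
      have h1 : (1 : ℝ) ≤ 84 ^ j := one_le_pow₀ (by norm_num)
      exact le_mul_of_one_le_left (by linarith) h1
    have hDD' : D₀ / 10 ^ 5 ≤ 84 ^ j * D₀ / 10 ^ 5 := by
      exact div_le_div_of_nonneg_right hDD (by norm_num)
    have hexp : Real.exp (D₀ / 10 ^ 5) ≤ Real.exp (84 ^ j * D₀ / 10 ^ 5) :=
      Real.exp_le_exp.mpr hDD'
    have h := hstep (p / 3 ^ (m + 1)) (p / 3 ^ (m + 1) * vv j) (84 ^ j * D₀)
      hrpos h3rle hκ0 hκle (h1D.trans hDD) (hnD.trans hexp) ?_ ?_ hP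
    · rw [hk', h3r] at h
      rw [pow_succ, mul_comm ((84 : ℝ) ^ j), mul_assoc]
      exact h
    · refine le_trans ?_ (hrD.trans hexp)
      exact one_div_le_one_div_of_le hr₀pos hrr
    · rw [hk'']
      have h1 : Real.exp (-(84 ^ j * D₀ / 10 ^ 5)) ≤ Real.exp (-(D₀ / 10 ^ 5)) :=
        Real.exp_le_exp.mpr (by linarith)
      refine h1.trans (hkD.trans ?_)
      have h2 : vv K ≤ vv (j + 1) := vv_anti hj
      have h4 : p / 3 ^ K ≤ p / 3 ^ m / 3 := by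
        rw [← h3r]; linarith
      have h5 : p / 3 ^ K * vv K ≤ p / 3 ^ m / 3 * vv (j + 1) :=
        mul_le_mul h4 h2 (vv_pos K).le (by positivity)
      linarith

/-- Eventually `C * (j+1) * (252/256)^j ≤ 1`. -/
theorem eventually_small (C : ℝ) : ∃ j₀ : ℕ, ∀ j : ℕ, j₀ ≤ j →
    C * (((j : ℝ) + 1) * (252 / 256) ^ j) ≤ 1 := by
  have h1 : Filter.Tendsto (fun j : ℕ => (j : ℝ) * (252 / 256 : ℝ) ^ j) Filter.atTop (nhds 0) :=
    tendsto_self_mul_const_pow_of_lt_one (by norm_num) (by norm_num)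
  have h2 : Filter.Tendsto (fun j : ℕ => (252 / 256 : ℝ) ^ j) Filter.atTop (nhds 0) :=
    tendsto_pow_atTop_nhds_zero_of_lt_one (by norm_num) (by norm_num)
  have h3 : Filter.Tendsto (fun j : ℕ => C * (((j : ℝ) + 1) * (252 / 256) ^ j)) Filter.atTop
      (nhds 0) := by
    have h4 := (h1.add h2).const_mul C
    simp only [add_zero, mul_zero] at h4
    refine h4.congr (fun j => ?_)
    ring
  have h5 := h3.eventually (gt_mem_nhds (show (0 : ℝ) < 1 by norm_num))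
  obtain ⟨j₀, hj₀⟩ := Filter.eventually_atTop.mp h5
  exact ⟨j₀, fun j hj => (hj₀ j hj).le⟩

/-- Abstract iteration with the constants of the explicit exponent `8`. -/
theorem iterate6 (p : ℝ) (hp : 0 < p) (hp1 : p ≤ 1) : ∃ n₀ : ℕ, ∀ n : ℕ, n₀ ≤ n →
    ∀ P : ℝ → ℝ → ℝ → Prop,
    (∀ r D : ℝ, 0 < r → r ≤ 1 → 10 ^ 6 ≤ D →
      (10 ^ 12 / r) * Real.log (10 ^ 12 / r) ≤ D → P r (r / 10 ^ 10) D) →
    (∀ r k D : ℝ, 0 < r → 3 * r ≤ 1 → 0 < k → 10 ^ 10 * k ≤ r → 10 ^ 6 ≤ D →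
      (n : ℝ) + 1 ≤ Real.exp (D / 10 ^ 5) → 1 / r ≤ Real.exp (D / 10 ^ 5) →
      Real.exp (-(D / 10 ^ 5)) ≤ 81 * k ^ 2 / r → P r k D →
      P (3 * r) (243000 * k ^ 2 / r) (84 * D)) →
    ∃ k D : ℝ, 0 < k ∧ k ≤ p / (1000 * n) ∧ 10 ^ 6 ≤ D ∧ (n : ℝ) + 1 ≤ Real.exp (D / 10 ^ 5) ∧
      1 / p ≤ Real.exp (D / 10 ^ 5) ∧ 100 * D ≤ (Real.log n) ^ 8 ∧ P p k D := by
  -- constants
  set L : ℝ := Real.log (10 ^ 12 / p) + 2 with hL
  have hpinv : 1 ≤ 1 / p := by rw [le_div_iff₀ hp]; linarith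
  have hLpos : 2 ≤ L := by
    have : 0 ≤ Real.log (10 ^ 12 / p) := Real.log_nonneg (by
      rw [le_div_iff₀ hp]; linarith)
    linarith
  set C₁ : ℝ := 10 ^ 12 / p * L + 10 ^ 9 / p with hC₁
  have hC₁pos : 0 < C₁ := by positivity
  obtain ⟨j₀, hj₀⟩ := eventually_small (100 * C₁ * 6 ^ 8)
  refine ⟨2 ^ (2 ^ j₀) + 4, fun n hn P hbase hstep => ?_⟩
  obtain ⟨K, hKj, hnK, hYlog⟩ := exists_steps j₀ n hn
  have hn4 : 4 ≤ n := by
    have hpp : 0 < 2 ^ (2 ^ j₀) := by positivity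
    omega
  have hnR : (4 : ℝ) ≤ n := by exact_mod_cast hn4
  set Y : ℝ := 2 ^ K with hY
  have hY1 : 1 ≤ Y := one_le_pow₀ (by norm_num)
  have hYpos : 0 < Y := by linarith
  have hr₀pos : 0 < p / 3 ^ K := by positivity
  have h3K : (1 : ℝ) ≤ 3 ^ K := one_le_pow₀ (by norm_num)
  have hr₀le : p / 3 ^ K ≤ 1 := (div_le_self hp.le h3K).trans hp1
  have h3Kpos : (0 : ℝ) < 3 ^ K := by positivity
  have hY3 : Y ≤ 3 ^ K := by
    rw [hY]; exact pow_le_pow_left₀ (by norm_num) (by norm_num) K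
  -- the base cost
  set D₀ : ℝ := C₁ * (((K : ℝ) + 1) * 3 ^ K) with hD₀
  have hK0 : (0 : ℝ) ≤ K := Nat.cast_nonneg _
  have hK13 : 3 ^ K ≤ ((K : ℝ) + 1) * 3 ^ K := le_mul_of_one_le_left h3Kpos.le (by linarith)
  have hbD : (10 ^ 12 / (p / 3 ^ K)) * Real.log (10 ^ 12 / (p / 3 ^ K)) +
      10 ^ 9 / p * 3 ^ K ≤ D₀ := by
    have e1 : 10 ^ 12 / (p / 3 ^ K) = 10 ^ 12 / p * 3 ^ K := by field_simp
    have e2 : Real.log (10 ^ 12 / p * 3 ^ K) = Real.log (10 ^ 12 / p) + K * Real.log 3 := by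
      rw [Real.log_mul (by positivity) (by positivity), Real.log_pow]
    have e3 : Real.log 3 ≤ 2 := by
      have := Real.log_le_sub_one_of_pos (show (0 : ℝ) < 3 by norm_num)
      linarith
    have e4 : Real.log (10 ^ 12 / p) + K * Real.log 3 ≤ L * ((K : ℝ) + 1) := by
      have h1 : (K : ℝ) * Real.log 3 ≤ K * 2 := mul_le_mul_of_nonneg_left e3 hK0
      have h2 : (K : ℝ) * 2 ≤ K * L := mul_le_mul_of_nonneg_left hLpos hK0
      have h3 : Real.log (10 ^ 12 / p) ≤ L := by linarith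
      linarith
    rw [e1, e2, hD₀, hC₁]
    have e5 : 10 ^ 12 / p * 3 ^ K * (Real.log (10 ^ 12 / p) + K * Real.log 3) ≤
        10 ^ 12 / p * 3 ^ K * (L * ((K : ℝ) + 1)) :=
      mul_le_mul_of_nonneg_left e4 (by positivity)
    have e6 : 10 ^ 9 / p * 3 ^ K ≤ 10 ^ 9 / p * (((K : ℝ) + 1) * 3 ^ K) :=
      mul_le_mul_of_nonneg_left hK13 (by positivity)
    calc _ ≤ 10 ^ 12 / p * 3 ^ K * (L * ((K : ℝ) + 1)) +
          10 ^ 9 / p * (((K : ℝ) + 1) * 3 ^ K) := add_le_add e5 e6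
      _ = _ := by ring
  have hlog0 : 0 ≤ (10 ^ 12 / (p / 3 ^ K)) * Real.log (10 ^ 12 / (p / 3 ^ K)) := by
    apply mul_nonneg (by positivity)
    apply Real.log_nonneg
    rw [le_div_iff₀ hr₀pos]
    linarith
  -- `Z = 3^K/p`
  obtain ⟨Z, hZ⟩ : ∃ Z : ℝ, Z = 3 ^ K / p := ⟨_, rfl⟩
  have hZY : Y ≤ Z := by
    rw [hZ, le_div_iff₀ hp]
    exact (mul_le_of_le_one_right hYpos.le hp1).trans hY3
  have hZ1 : 1 ≤ Z := hY1.trans hZY
  have hDZ : 10 ^ 9 * Z ≤ D₀ := by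
    have : 10 ^ 9 * Z = 10 ^ 9 / p * 3 ^ K := by rw [hZ]; ring
    rw [this]; linarith
  have hDZ' : 10 ^ 4 * Z ≤ D₀ / 10 ^ 5 := by
    rw [le_div_iff₀ (by norm_num)]; linarith
  have h1D : 10 ^ 6 ≤ D₀ := by linarith
  have hn2 : (n : ℝ) + 1 ≤ 2 ^ (2 ^ K) := by exact_mod_cast hnK
  have hnD : (n : ℝ) + 1 ≤ Real.exp (D₀ / 10 ^ 5) := by
    have h2 : (2 : ℝ) ^ (2 ^ K) ≤ (10 ^ 7 / 81 : ℝ) ^ (2 ^ K) :=
      pow_le_pow_left₀ (by norm_num) (by norm_num) _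
    refine hn2.trans (h2.trans ((big_pow_le K hY).trans (Real.exp_le_exp.mpr ?_)))
    linarith
  have hinv : 1 / (p / 3 ^ K) = Z := by rw [hZ, one_div_div]
  have hZexp : Z ≤ Real.exp Z := by
    have := Real.add_one_le_exp Z
    linarith
  have hrD : 1 / (p / 3 ^ K) ≤ Real.exp (D₀ / 10 ^ 5) := by
    rw [hinv]
    exact hZexp.trans (Real.exp_le_exp.mpr (by linarith))
  have hkD : Real.exp (-(D₀ / 10 ^ 5)) ≤ p / 3 ^ K * vv K / 1000 :=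
    floor_bound hp hZ hZ1 hY hZY hDZ'
  have hbD' : (10 ^ 12 / (p / 3 ^ K)) * Real.log (10 ^ 12 / (p / 3 ^ K)) ≤ D₀ := by
    have : 0 ≤ 10 ^ 9 / p * 3 ^ K := by positivity
    linarith
  have hmain := iterate6_core n p hp hp1 K P hbase hstep D₀ h1D hnD hbD' hrD hkD K le_rfl
  rw [Nat.sub_self, pow_zero, div_one] at hmain
  have hDD : D₀ ≤ 84 ^ K * D₀ := by
    have h1 : (1 : ℝ) ≤ 84 ^ K := one_le_pow₀ (by norm_num)
    exact le_mul_of_one_le_left (by linarith) h1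
  have hexp : Real.exp (D₀ / 10 ^ 5) ≤ Real.exp (84 ^ K * D₀ / 10 ^ 5) :=
    Real.exp_le_exp.mpr (div_le_div_of_nonneg_right hDD (by norm_num))
  refine ⟨p * vv K, 84 ^ K * D₀, ?_, ?_, h1D.trans hDD, hnD.trans hexp, ?_, ?_, hmain⟩
  · have := vv_pos K
    positivity
  · -- `k ≤ p / (1000 n)`
    have h1 : (1000 : ℝ) * n ≤ 81000 * (10 ^ 7 / 81) ^ (2 ^ K) := by
      have h2 : (2 : ℝ) ^ (2 ^ K) ≤ (10 ^ 7 / 81 : ℝ) ^ (2 ^ K) :=
        pow_le_pow_left₀ (by norm_num) (by norm_num) _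
      linarith
    rw [vv_eq, div_eq_mul_one_div p]
    apply mul_le_mul_of_nonneg_left _ hp.le
    exact one_div_le_one_div_of_le (by linarith) h1
  · refine le_trans ?_ (hrD.trans hexp)
    exact one_div_le_one_div_of_le hr₀pos (div_le_self hp.le h3K)
  · -- `100 * D ≤ (log n)^8`
    have h2 : Y ^ 8 = 256 ^ K := by
      rw [hY, ← pow_mul, mul_comm, pow_mul]; norm_num
    have h3 : (252 / 256 : ℝ) ^ K * 256 ^ K = 84 ^ K * 3 ^ K := by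
      rw [← mul_pow, ← mul_pow]; norm_num
    have h1 : 84 ^ K * D₀ = C₁ * (((K : ℝ) + 1) * (252 / 256) ^ K) * Y ^ 8 := by
      rw [h2, hD₀]
      calc 84 ^ K * (C₁ * (((K : ℝ) + 1) * 3 ^ K)) = C₁ * ((K : ℝ) + 1) * (84 ^ K * 3 ^ K) := by
            ring
        _ = C₁ * ((K : ℝ) + 1) * ((252 / 256 : ℝ) ^ K * 256 ^ K) := by rw [h3]
        _ = _ := by ring
    have h4 : Y ^ 8 ≤ (6 * Real.log n) ^ 8 := pow_le_pow_left₀ hYpos.le hYlog 8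
    have h5 := hj₀ K hKj
    have h6 : 0 ≤ C₁ * (((K : ℝ) + 1) * (252 / 256) ^ K) := by positivity
    rw [h1]
    calc 100 * (C₁ * (((K : ℝ) + 1) * (252 / 256) ^ K) * Y ^ 8) ≤
          100 * (C₁ * (((K : ℝ) + 1) * (252 / 256) ^ K) * (6 * Real.log n) ^ 8) :=
          mul_le_mul_of_nonneg_left (mul_le_mul_of_nonneg_left h4 h6) (by norm_num)
      _ = (100 * C₁ * 6 ^ 8 * (((K : ℝ) + 1) * (252 / 256) ^ K)) * Real.log n ^ 8 := by
          rw [mul_pow]; ring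
      _ ≤ 1 * Real.log n ^ 8 := mul_le_mul_of_nonneg_right h5 (by positivity)
      _ = Real.log n ^ 8 := one_mul _

end Vale.Agent.P321.R2.H94
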